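import Vale.Agent.P093.BUp
import Vale.Agent.P093C.Defs

/-! P093C BUt (TASK). The Borsuk-Ulam theorem for products of spheres with one more block; a port of `bu_prod` in `Vale/Agent/P093/BUp.lean`. Helper names start with `but_`.
Apply `bu_blocks` with `A = Option (Option J)` (or `J ⊕ Bool`), `σ : Fin n ≃ (J × Fin 2 ⊕ D) ⊕ W` increasing along the three summands (`bup_sig` twice, or `finSumFinEquiv`), the equations `F`, `G`, `Φ` in this order. -/

open Filter Topology Set

noncomputable section

namespace Vale.Agent.P093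

section

variable {J D W : Type} [DecidableEq J] {n : ℕ} (σ : Fin n ≃ (J × Fin 2 ⊕ D) ⊕ W)

/-- The block of an index. -/
def butF (k : Fin n) : Option (Option J) :=
  Sum.elim (Sum.elim (fun a => some (some a.1)) fun _ => some none) (fun _ => none) (σ k)

/-- The first coordinates. -/
def butW (x : Fin n ⊕ Option (Option J) → ℝ) : Option W → ℝ :=
  fun o => o.elim (x (.inr none)) fun d => x (.inl (σ.symm (.inr d)))

/-- The second coordinates. -/
def butV (x : Fin n ⊕ Option (Option J) → ℝ) : Option D → ℝ :=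
  fun o => o.elim (x (.inr (some none))) fun d => x (.inl (σ.symm (.inl (.inr d))))

/-- The third coordinates. -/
def butU (x : Fin n ⊕ Option (Option J) → ℝ) (j : J) : Fin 3 → ℝ :=
  ![x (.inr (some (some j))), x (.inl (σ.symm (.inl (.inl (j, 0))))),
    x (.inl (σ.symm (.inl (.inl (j, 1)))))]

variable (x : Fin n ⊕ Option (Option J) → ℝ)

theorem butW_none : butW σ (flp (butF σ) none x) = -butW σ x := by
  funext o
  cases o <;> simp [butW, flp, butF]

theorem butW_some (a : Option J) : butW σ (flp (butF σ) (some a) x) = butW σ x := by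
  funext o
  cases o <;> simp [butW, flp, butF]

theorem butV_none : butV σ (flp (butF σ) none x) = butV σ x := by
  funext o
  cases o <;> simp [butV, flp, butF]

theorem butV_one : butV σ (flp (butF σ) (some none) x) = -butV σ x := by
  funext o
  cases o <;> simp [butV, flp, butF]

theorem butV_some (j : J) : butV σ (flp (butF σ) (some (some j)) x) = butV σ x := by
  funext o
  cases o <;> simp [butV, flp, butF]

theorem butU_none : butU σ (flp (butF σ) none x) = butU σ x := by
  funext j
  simp [butU, flp, butF]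

theorem butU_one : butU σ (flp (butF σ) (some none) x) = butU σ x := by
  funext j
  simp [butU, flp, butF]

theorem butU_some (j : J) : butU σ (flp (butF σ) (some (some j)) x) =
    Function.update (butU σ x) j (-butU σ x j) := by
  funext j'
  by_cases h : j' = j
  · subst h
    rw [Function.update_self]
    simp [butU, flp, butF]
  · rw [Function.update_of_ne h]
    simp [butU, flp, butF, h]

variable {x}

omit [DecidableEq J] in
theorem butU_ne {j : J} (h : ∃ i, Sum.elim (butF σ) id i = some (some j) ∧ x i ≠ 0) :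
    butU σ x j ≠ 0 := by
  obtain ⟨i, h1, h2⟩ := h
  intro h0
  have a0 := congrFun h0 0
  have a1 := congrFun h0 1
  have a2 := congrFun h0 2
  rcases i with k | o
  · obtain ⟨s, rfl⟩ := σ.symm.surjective k
    rcases s with (⟨j', c⟩ | d) | d
    · obtain rfl : j' = j := by simpa [butF] using h1
      fin_cases c
      · exact h2 a1
      · exact h2 a2
    · simp [butF] at h1
    · simp [butF] at h1
  · obtain rfl : o = some (some j) := h1
    exact h2 a0

omit [DecidableEq J] in
theorem butV_ne (h : ∃ i, Sum.elim (butF σ) id i = some none ∧ x i ≠ 0) : butV σ x ≠ 0 := by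
  obtain ⟨i, h1, h2⟩ := h
  intro h0
  rcases i with k | o
  · obtain ⟨s, rfl⟩ := σ.symm.surjective k
    rcases s with (⟨j', c⟩ | d) | d
    · simp [butF] at h1
    · exact h2 (congrFun h0 (some d))
    · simp [butF] at h1
  · obtain rfl : o = some none := h1
    exact h2 (congrFun h0 none)

omit [DecidableEq J] in
theorem butW_ne (h : ∃ i, Sum.elim (butF σ) id i = none ∧ x i ≠ 0) : butW σ x ≠ 0 := by
  obtain ⟨i, h1, h2⟩ := h
  intro h0
  rcases i with k | o
  · obtain ⟨s, rfl⟩ := σ.symm.surjective k
    rcases s with (⟨j', c⟩ | d) | d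
    · simp [butF] at h1
    · simp [butF] at h1
    · exact h2 (congrFun h0 (some d))
  · obtain rfl : o = none := h1
    exact h2 (congrFun h0 none)

omit [DecidableEq J] in
theorem but_cont : Continuous fun x : Fin n ⊕ Option (Option J) → ℝ =>
    (butW σ x, butV σ x, butU σ x) := by
  refine Continuous.prodMk (continuous_pi fun o => ?_) (Continuous.prodMk
    (continuous_pi fun o => ?_) (continuous_pi fun j => continuous_pi fun c => ?_))
  · cases o <;> exact continuous_apply _
  · cases o <;> exact continuous_apply _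
  · fin_cases c <;> exact continuous_apply _

end

theorem but_sig (A D W : Type) [Fintype A] [Fintype D] [Fintype W] :
    ∃ (n : ℕ) (σ : Fin n ≃ (A ⊕ D) ⊕ W), (∀ d a, ¬σ.symm (.inr d) < σ.symm (.inl a)) ∧
      ∀ d a, ¬σ.symm (.inl (.inr d)) < σ.symm (.inl (.inl a)) := by
  obtain ⟨n, σ, hσ⟩ := bup_sig A D
  refine ⟨_, finSumFinEquiv.symm.trans (Equiv.sumCongr σ (Fintype.equivFin W).symm),
    fun d a h => ?_, fun d a h => hσ d a ?_⟩
  · have h1 := (σ.symm a).2
    have h2 : n + ((Fintype.equivFin W d : Fin _) : ℕ) < ((σ.symm a : Fin n) : ℕ) := h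
    omega
  · exact h

theorem bu_three {J D W : Type} [Fintype J] [DecidableEq J] [Fintype D] [Fintype W]
    (Φ : (Option W → ℝ) → (J → Fin 3 → ℝ) → W → ℝ)
    (G : (Option W → ℝ) → (Option D → ℝ) → (J → Fin 3 → ℝ) → D → ℝ)
    (F : (Option W → ℝ) → (Option D → ℝ) → (J → Fin 3 → ℝ) → J → Fin 2 → ℝ)
    (cΦ : ContinuousOn (fun z : (Option W → ℝ) × (J → Fin 3 → ℝ) => Φ z.1 z.2)
      {z | z.1 ≠ 0 ∧ ∀ j, z.2 j ≠ 0})
    (cG : ContinuousOn (fun z : (Option W → ℝ) × (Option D → ℝ) × (J → Fin 3 → ℝ) =>
      G z.1 z.2.1 z.2.2) {z | z.1 ≠ 0 ∧ ∀ j, z.2.2 j ≠ 0})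
    (cF : ContinuousOn (fun z : (Option W → ℝ) × (Option D → ℝ) × (J → Fin 3 → ℝ) =>
      F z.1 z.2.1 z.2.2) {z | z.1 ≠ 0 ∧ ∀ j, z.2.2 j ≠ 0})
    (P0 : ∀ w u, Φ (-w) u = -Φ w u) (P2 : ∀ w u j, Φ w (Function.update u j (-u j)) = Φ w u)
    (G0 : ∀ w v u, G (-w) v u = G w v u) (G1 : ∀ w v u, G w (-v) u = -G w v u)
    (G2 : ∀ w v u j, G w v (Function.update u j (-u j)) = G w v u)
    (F0 : ∀ w v u, F (-w) v u = F w v u) (F1 : ∀ w v u, F w (-v) u = -F w v u)
    (F2 : ∀ w v u j, F w v (Function.update u j (-u j)) j = -F w v u j)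
    (F3 : ∀ w v u j j', j' ≠ j → F w v (Function.update u j (-u j)) j' = F w v u j') :
    ∃ w v u, w ≠ 0 ∧ v ≠ 0 ∧ (∀ j, u j ≠ 0) ∧ Φ w u = 0 ∧ G w v u = 0 ∧ F w v u = 0 := by
  obtain ⟨n, σ, hσ, hσ'⟩ := but_sig (J × Fin 2) D W
  refine Exists.elim (bu_blocks (butF σ)
    (fun x k => Sum.elim (Sum.elim
      (fun a : J × Fin 2 => F (butW σ x) (butV σ x) (butU σ x) a.1 a.2)
      fun d => G (butW σ x) (butV σ x) (butU σ x) d) (fun d => Φ (butW σ x) (butU σ x) d) (σ k))
    ?_ ?_ ?_ ?_) ?_
  · have hm : MapsTo (fun x : Fin n ⊕ Option (Option J) → ℝ => (butW σ x, butV σ x, butU σ x))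
        {x | ∀ a, ∃ i, Sum.elim (butF σ) id i = a ∧ x i ≠ 0}
        {z | z.1 ≠ 0 ∧ ∀ j, z.2.2 j ≠ 0} :=
      fun x hx => ⟨butW_ne σ (hx none), fun j => butU_ne σ (hx (some (some j)))⟩
    have c1 := cF.comp (but_cont σ).continuousOn hm
    have c2 := cG.comp (but_cont σ).continuousOn hm
    have c3 := cΦ.comp (f := fun x => (butW σ x, butU σ x))
      ((but_cont σ).fst.prodMk (but_cont σ).snd.snd).continuousOn hm
    refine continuousOn_pi.2 fun k => ?_
    rcases σ k with (⟨j, c⟩ | d) | d
    · exact continuousOn_pi.1 (continuousOn_pi.1 c1 j) c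
    · exact continuousOn_pi.1 c2 d
    · exact continuousOn_pi.1 c3 d
  · intro k a
    rcases σ k with (⟨j, c⟩ | d) | d <;> rcases a with _ | _ | j'
    · exact Or.inl fun x => by simp [butW_none, butV_none, butU_none, F0]
    · exact Or.inr fun x => by simp [butW_some, butV_one, butU_one, F1]
    · by_cases h : j = j'
      · subst h
        exact Or.inr fun x => by simp [butW_some, butV_some, butU_some, F2]
      · exact Or.inl fun x => by simp [butW_some, butV_some, butU_some, F3 _ _ _ _ _ h]
    · exact Or.inl fun x => by simp [butW_none, butV_none, butU_none, G0]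
    · exact Or.inr fun x => by simp [butW_some, butV_one, butU_one, G1]
    · exact Or.inl fun x => by simp [butW_some, butV_some, butU_some, G2]
    · exact Or.inr fun x => by simp [butW_none, butU_none, P0]
    · exact Or.inl fun x => by simp [butW_some, butU_one]
    · exact Or.inl fun x => by simp [butW_some, butU_some, P2]
  · intro k x
    obtain ⟨s, rfl⟩ := σ.symm.surjective k
    rcases s with (⟨j, c⟩ | d) | d
    · have e : butF σ (σ.symm (.inl (.inl (j, c)))) = some (some j) := by simp [butF]
      simp [e, butW_some, butV_some, butU_some, F2]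
    · have e : butF σ (σ.symm (.inl (.inr d))) = some none := by simp [butF]
      simp [e, butW_some, butV_one, butU_one, G1]
    · have e : butF σ (σ.symm (.inr d)) = none := by simp [butF]
      simp [e, butW_none, butU_none, P0]
  · intro k k' hk hne x
    obtain ⟨s, rfl⟩ := σ.symm.surjective k
    obtain ⟨s', rfl⟩ := σ.symm.surjective k'
    rcases s' with (⟨j', c'⟩ | d') | d'
    · have e : butF σ (σ.symm (.inl (.inl (j', c')))) = some (some j') := by simp [butF]
      rcases s with (⟨j, c⟩ | d) | d
      · have h : j ≠ j' := fun h => hne (by simp [butF, h])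
        simp [e, butW_some, butV_some, butU_some, F3 _ _ _ _ _ h]
      · simp [e, butW_some, butV_some, butU_some, G2]
      · simp [e, butW_some, butU_some, P2]
    · have e : butF σ (σ.symm (.inl (.inr d'))) = some none := by simp [butF]
      rcases s with (a | d) | d
      · exact absurd hk (hσ' d' a)
      · exact absurd (by simp [butF]) hne
      · simp [e, butW_some, butU_one]
    · rcases s with a | d
      · exact absurd hk (hσ d' a)
      · exact absurd (by simp [butF]) hne
  · rintro x ⟨hx, h0⟩
    refine ⟨butW σ x, butV σ x, butU σ x, butW_ne σ (hx none), butV_ne σ (hx (some none)),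
      fun j => butU_ne σ (hx (some (some j))), funext fun d => ?_, funext fun d => ?_,
      funext fun j => funext fun c => ?_⟩
    · simpa using congrFun h0 (σ.symm (.inr d))
    · simpa using congrFun h0 (σ.symm (.inl (.inr d)))
    · simpa using congrFun h0 (σ.symm (.inl (.inl (j, c))))

end Vale.Agent.P093
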