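import Vale.Agent.P093.Obs
import Vale.Agent.P093C.BUt

/-! P093C BUq (TASK). Cubes times spheres. Helper names start with `buq_`.
`exists_fold`: `a = w none`, `ν = ‖fun i => w (some i)‖`, `r = max |a| (ν / 3) > 0` for `w ≠ 0`, `ζ i = max (-r ^ 2) (min (w (some i) * a) (r ^ 2)) / r ^ 2 * (max 0 (min (3 |a| - ν) r) / r) ∈ [-1, 1]` (also for `r = 0`), `χ w i = (1 + ζ i) / 2` (or `Set.projIcc 0 1 _ ((1 + ζ i) / 2)`). If `ν ≤ 2 |a|`, `a ≠ 0` then `r = |a|` and the second factor is `1`.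
`obs_zeroC`: a port of `obs_zero` in `Vale/Agent/P093/Obs.lean`; apply `bu_three` with `W = Fin m`, `Φ w u i = a * R (χ w, H ∘ u) i + w (some i) - max (-|a|) (min (w (some i)) |a|)`. At a zero: `a ≠ 0`; `|w (some i)| ≤ 2 |a|` by `Mir.bd`; if `|a| < |w (some i)|` then `Mir.hi` or `Mir.lo` give a contradiction; so `R = 0`. -/

open Filter Topology Set

noncomputable section

namespace Vale.Agent.P093

theorem exists_fold (m : ℕ) : ∃ χ : (Option (Fin m) → ℝ) → Cb m, ContinuousOn χ {w | w ≠ 0} ∧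
    (∀ w, χ (-w) = χ w) ∧ ∀ w, w none ≠ 0 → (∀ i, |w (some i)| ≤ 2 * |w none|) → ∀ i,
      (w none ^ 2 ≤ w (some i) * w none → χ w i = 1) ∧
      (w (some i) * w none ≤ -w none ^ 2 → χ w i = 0) := by
  refine ⟨fun w i => projIcc 0 1 zero_le_one (1 / 2 + 2 * (w (some i) * w none) / ‖w‖ ^ 2),
    continuousOn_pi.2 fun i => continuous_projIcc.comp_continuousOn (continuousOn_const.add
      (ContinuousOn.div (by fun_prop) (by fun_prop) fun w hw => pow_ne_zero 2 (norm_ne_zero_iff.2 hw))),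
    fun w => by simp only [norm_neg, Pi.neg_apply, neg_mul_neg], fun w h0 h i => ?_⟩
  have h1 : ‖w‖ ≤ 2 * |w none| := (pi_norm_le_iff_of_nonneg (by positivity)).2 fun o => by
    rcases o with _ | j
    · rw [Real.norm_eq_abs]
      linarith [abs_nonneg (w none)]
    · exact h j
  have h2 : 0 < ‖w‖ ^ 2 := pow_pos (norm_pos_iff.2 fun e => h0 (by rw [e]; rfl)) 2
  have h3 : ‖w‖ ^ 2 ≤ 4 * w none ^ 2 := by
    have h4 := pow_le_pow_left₀ (norm_nonneg w) h1 2
    rw [mul_pow, sq_abs] at h4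
    linarith
  refine ⟨fun e => projIcc_of_right_le _ ?_, fun e => projIcc_of_le_left _ ?_⟩
  · have h4 : 1 / 2 ≤ 2 * (w (some i) * w none) / ‖w‖ ^ 2 := by
      rw [le_div_iff₀ h2]
      linarith
    linarith
  · have h4 : 2 * (w (some i) * w none) / ‖w‖ ^ 2 ≤ -(1 / 2) := by
      rw [div_le_iff₀ h2]
      linarith
    linarith

theorem buq_bd {a x r : ℝ} (e : a * r + (max (x - |a|) 0 - max (-x - |a|) 0) = 0) (hr : |r| ≤ 1) :
    |x| ≤ 2 * |a| := by
  have h0 := abs_nonneg a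
  have h1 : |a * r| ≤ |a| := by
    rw [abs_mul]
    exact mul_le_of_le_one_right h0 hr
  obtain ⟨h2, h3⟩ := abs_le.1 h1
  rw [abs_le]
  rcases max_cases (x - |a|) 0 with h | h <;> rcases max_cases (-x - |a|) 0 with h' | h' <;>
    constructor <;> linarith [h.1, h.2, h'.1, h'.2]

theorem buq_zero {a x r : ℝ} (ha : a ≠ 0) (e : a * r + (max (x - |a|) 0 - max (-x - |a|) 0) = 0)
    (h1 : a ^ 2 ≤ x * a → 0 ≤ r) (h2 : x * a ≤ -a ^ 2 → r ≤ 0) : r = 0 := by
  have h0 := abs_pos.2 ha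
  rcases lt_or_ge |a| x with h | h
  · rw [max_eq_left (show 0 ≤ x - |a| by linarith), max_eq_right (show -x - |a| ≤ 0 by linarith)] at e
    exfalso
    rcases ha.lt_or_gt with h3 | h3
    · rw [abs_of_neg h3] at h e
      have := h2 (by nlinarith)
      nlinarith
    · rw [abs_of_pos h3] at h e
      have := h1 (by nlinarith)
      nlinarith
  rw [max_eq_right (show x - |a| ≤ 0 by linarith)] at e
  rcases lt_or_ge |a| (-x) with h' | h'
  · rw [max_eq_left (show 0 ≤ -x - |a| by linarith)] at e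
    exfalso
    rcases ha.lt_or_gt with h3 | h3
    · rw [abs_of_neg h3] at h' e
      have := h1 (by nlinarith)
      nlinarith
    · rw [abs_of_pos h3] at h' e
      have := h2 (by nlinarith)
      nlinarith
  · rw [max_eq_right (show -x - |a| ≤ 0 by linarith), sub_zero, add_zero] at e
    exact (mul_eq_zero.1 e).resolve_left ha

theorem obs_zeroC {J D : Type} [Fintype J] [DecidableEq J] [Fintype D] {m : ℕ}
    {H : (Fin 3 → ℝ) → S2} (hH : ContinuousOn H {u | u ≠ 0}) (hH' : ∀ u, H (-u) = H u)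
    {R : Cb m × (J → S2) → Fin m → ℝ} (hR : Mir R)
    (cD : D → Option (D × Fin 2) → Cb m × (J → S2) → ℂ) (hD : ∀ d o, Continuous (cD d o))
    (cJ : J → Fin 2 → Option (D × Fin 2) → Cb m → ℂ) (hJ : ∀ j s o, Continuous (cJ j s o)) :
    ∃ (τ : Cb m) (v : Option (D × Fin 2) → ℝ) (u : J → Fin 3 → ℝ), v ≠ 0 ∧ (∀ j, u j ≠ 0) ∧
      R (τ, fun j => H (u j)) = 0 ∧ (∀ d, ∑ o, v o * cD d o (τ, fun j => H (u j)) = 0) ∧
      ∀ j, ∑ s, starRingEnd ℂ (spin (u j) s) * ∑ o, v o * cJ j s o τ = 0 := by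
  obtain ⟨χ, χc, χe, χb⟩ := exists_fold m
  obtain ⟨Ω, hΩ⟩ : ∃ Ω : (Option (Fin m) → ℝ) → (J → Fin 3 → ℝ) → Cb m × (J → S2),
      ∀ w u, Ω w u = (χ w, fun j => H (u j)) := ⟨_, fun _ _ => rfl⟩
  have e1 : ∀ w u, Ω (-w) u = Ω w u := fun w u => by rw [hΩ, hΩ, χe]
  have e2 : ∀ w u j, Ω w (Function.update u j (-u j)) = Ω w u := fun w u j => by
    rw [hΩ, hΩ]
    congr 1
    funext j'
    by_cases h : j' = j
    · rw [h, Function.update_self, hH']
    · rw [Function.update_of_ne h]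
  have c1 : ContinuousOn (fun z : (Option (Fin m) → ℝ) × (J → Fin 3 → ℝ) => Ω z.1 z.2)
      {z | z.1 ≠ 0 ∧ ∀ j, z.2 j ≠ 0} := by
    simp only [hΩ]
    exact (χc.comp continuousOn_fst fun z hz => hz.1).prodMk (continuousOn_pi.2 fun j =>
      hH.comp (Continuous.continuousOn (by fun_prop)) fun z hz => hz.2 j)
  have c2 : ContinuousOn (fun z : (Option (Fin m) → ℝ) × (Option (D × Fin 2) → ℝ) ×
      (J → Fin 3 → ℝ) => Ω z.1 z.2.2) {z | z.1 ≠ 0 ∧ ∀ j, z.2.2 j ≠ 0} :=
    c1.comp (f := fun z : (Option (Fin m) → ℝ) × (Option (D × Fin 2) → ℝ) × (J → Fin 3 → ℝ) =>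
      (z.1, z.2.2)) (Continuous.continuousOn (by fun_prop)) fun z hz => hz
  have c3 : ∀ c : Option (D × Fin 2) → Cb m × (J → S2) → ℂ, (∀ o, Continuous (c o)) →
      ContinuousOn (fun z : (Option (Fin m) → ℝ) × (Option (D × Fin 2) → ℝ) × (J → Fin 3 → ℝ) =>
        ∑ o, z.2.1 o * c o (Ω z.1 z.2.2)) {z | z.1 ≠ 0 ∧ ∀ j, z.2.2 j ≠ 0} := fun c hc =>
    continuousOn_finsetSum _ fun o _ => ContinuousOn.mul (Continuous.continuousOn (by fun_prop))
      ((hc o).comp_continuousOn c2)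
  obtain ⟨w, v, u, hw, hv, hu, h0, h1, h2⟩ := bu_three (J := J) (D := D × Fin 2) (W := Fin m)
    (fun w u i => w none * R (Ω w u) i +
      (max (w (some i) - |w none|) 0 - max (-w (some i) - |w none|) 0))
    (fun w v u d => obsRI (∑ o, v o * cD d.1 o (Ω w u)) d.2)
    (fun w v u j => obsRI (∑ s, starRingEnd ℂ (spin (u j) s) * ∑ o, v o * cJ j s o (Ω w u).1))
    (continuousOn_pi.2 fun i => ((Continuous.continuousOn (by fun_prop)).mul
      (((continuous_apply i).comp hR.cont).comp_continuousOn c1)).add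
      (Continuous.continuousOn (by fun_prop)))
    (continuousOn_pi.2 fun d => ((continuous_apply d.2).comp obsRI_cont).comp_continuousOn
      (c3 _ (hD d.1)))
    (continuousOn_pi.2 fun j => obsRI_cont.comp_continuousOn
      (continuousOn_finsetSum _ fun s _ => ContinuousOn.mul (Continuous.continuousOn
        (Complex.continuous_conj.comp ((obs_spin_cont s).comp (by fun_prop))))
        (c3 (fun o z => cJ j s o z.1) fun o => (hJ j s o).comp continuous_fst)))
    (fun w u => funext fun i => by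
      simp only [e1, Pi.neg_apply, abs_neg, neg_neg]
      ring)
    (fun w u j => by simp only [e2])
    (fun w v u => by simp only [e1])
    (fun w v u => funext fun d => by
      simp only [Pi.neg_apply, Complex.ofReal_neg, neg_mul, Finset.sum_neg_distrib, obsRI_neg])
    (fun w v u j => by simp only [e2])
    (fun w v u => by simp only [e1])
    (fun w v u => funext fun j => by
      simp only [Pi.neg_apply, Complex.ofReal_neg, neg_mul, mul_neg, Finset.sum_neg_distrib,
        obsRI_neg])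
    (fun w v u j => by
      simp only [e2, Function.update_self, obs_spin_neg, map_neg, neg_mul, Finset.sum_neg_distrib,
        obsRI_neg])
    (fun w v u j j' h => by simp only [e2, Function.update_of_ne h])
  have h3 : ∀ i, |w (some i)| ≤ 2 * |w none| := fun i => buq_bd (congrFun h0 i) (hR.bd _ i)
  have h4 : w none ≠ 0 := fun e => hw (funext fun o => by
    rcases o with _ | i
    · exact e
    · have h5 := h3 i
      rw [e, abs_zero, mul_zero] at h5
      exact abs_nonpos_iff.1 h5)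
  simp only [hΩ] at h0 h1 h2
  exact ⟨χ w, v, u, hv, hu, funext fun i => buq_zero h4 (congrFun h0 i)
      (fun e => hR.hi _ i ((χb w h4 h3 i).1 e)) fun e => hR.lo _ i ((χb w h4 h3 i).2 e),
    fun d => obsRI_zero fun s => congrFun h1 (d, s),
    fun j => obsRI_zero fun s => congrFun (congrFun h2 j) s⟩

end Vale.Agent.P093
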