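import Vale.Agent.P093C.BUq
import Vale.Agent.P093C.RS
import Vale.Agent.P093C.GrpB

/-! P093C Obs. The obstruction. -/

open Filter Topology Set

noncomputable section

namespace Vale.Agent.P093

variable {X : Type} [TopologicalSpace X] {h : X ≃ₜ X} {q p : ℕ} {L : Type} [Fintype L]
  [DecidableEq L] {g : X → ℝ} {ρ : L → X → Fin 3 → ℝ} {ε : ℝ}

theorem exists_coordC {P : Type} [Fintype P] {ps : P → ℤ} (hps : Function.Injective ps) {N : ℤ}
    (p0 : ∀ a, 0 ≤ ps a) (pN : ∀ a, ps a ≤ N) {R : ℕ} {gA gB : X → ℂ}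
    (β : X → Matrix (Fin p ⊕ L × Fin 2) (Fin p ⊕ L × Fin 2) ℂ)
    {A B x : Fin p ⊕ L × Fin 2 → Fin p ⊕ L × Fin 2 → Hs X →L[ℂ] Hs X}
    (hA : ∀ i j ξ a, A i j ξ a = gA ((h ^ a.1) a.2) * matA p L i j * ξ a)
    (hB : ∀ i j ξ a, B i j ξ a = gB ((h ^ a.1) a.2) * β ((h ^ a.1) a.2) i j * ξ a)
    (hx : ∀ i j, FP R (x i j))
    (hε : ∀ i j, ‖∑ k, ∑ l, star (x k i) * B k l * x l j - A i j‖ <
      1 / (Fintype.card (Fin p ⊕ L × Fin 2) + 1))
    {y : X} {v : P × Fin p → ℂ} (hv : v ≠ 0)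
    (hy : ∀ a, v a ≠ 0 → gA ((h ^ ps a.1) y) = 1) :
    ∃ (l : ℤ) (k : Fin p ⊕ L × Fin 2), gB ((h ^ l) y) ≠ 0 ∧ -(R : ℤ) ≤ l ∧ l ≤ N + R ∧
      ∑ k', β ((h ^ l) y) k k' *
        ∑ a : P × Fin p, v a * x k' (.inl a.2) (dl (ps a.1, y)) (l, y) ≠ 0 := by
  classical
  obtain ⟨ξ, x1, x2⟩ : ∃ ξ : Fin p ⊕ L × Fin 2 → Hs X,
      (∀ α, ξ (.inl α) = ∑ j : P, v (j, α) • dl (ps j, y)) ∧ ∀ b, ξ (.inr b) = 0 :=
    ⟨Sum.elim (fun α => ∑ j : P, v (j, α) • dl (ps j, y)) 0, fun _ => rfl,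
      fun _ => rfl⟩
  have a1 : ∀ i j, A i j (ξ j) = if i = j then ξ j else 0 := fun i j => by
    rcases j with α | b
    swap
    · rw [x2, map_zero, ite_self]
    refine lp.ext (funext fun a => ?_)
    rw [hA]
    by_cases h0 : ξ (.inl α) a = 0
    · split_ifs
      · rw [h0, mul_zero]
      · rw [h0, mul_zero]
        rfl
    · have h1 := h0
      rw [x1, oba_sum] at h1
      obtain ⟨j, -, hj⟩ := Finset.exists_ne_zero_of_sum_ne_zero h1
      rw [oba_smul, dl_apply] at hj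
      have h2 : a = (ps j, y) := by
        by_contra h2
        rw [if_neg h2, mul_zero] at hj
        exact hj rfl
      have h3 : gA ((h ^ a.1) a.2) = 1 := by
        rw [h2]
        exact hy (j, α) (left_ne_zero_of_mul hj)
      rw [h3, one_mul, matA, Matrix.diagonal_apply]
      split_ifs with h4
      · rw [h4, Sum.elim_inl, one_mul]
      · rw [zero_mul]
        rfl
  have a2 : ¬ ∀ k, ∑ l, B k l (∑ j, x l j (ξ j)) = 0 := fun h0 => hv (funext fun b => by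
    have h1 := congrArg (fun f : Hs X => f (ps b.1, y))
      (oba_zero (z := fun k i => star (x k i)) a1 hε h0 (.inl b.2))
    simp only [x1, oba_sum, oba_smul, dl_apply] at h1
    rw [Finset.sum_eq_single b.1 (fun j _ hj => by
      rw [if_neg, mul_zero]
      intro e
      exact hj (hps (congrArg Prod.fst e)).symm)
      (fun hb => absurd (Finset.mem_univ _) hb), if_pos rfl, mul_one] at h1
    exact h1)
  obtain ⟨k, hk⟩ := not_forall.1 a2
  obtain ⟨a, ha⟩ : ∃ a, (∑ l, B k l (∑ j, x l j (ξ j))) a ≠ 0 := by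
    by_contra hc
    exact hk (lp.ext (funext fun a => not_not.1 (not_exists.1 hc a)))
  have e : ∀ l, (∑ j, x l j (ξ j)) a =
      ∑ b : P × Fin p, v b * x l (.inl b.2) (dl (ps b.1, y)) a := fun l => by
    rw [Fintype.sum_sum_type]
    simp only [x1, x2, map_zero, Finset.sum_const_zero, add_zero, map_sum, map_smul, oba_sum,
      oba_smul]
    rw [Fintype.sum_prod_type_right]
  simp only [oba_sum _ (fun l => B k l _), hB, e, mul_assoc, ← Finset.mul_sum] at ha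
  obtain ⟨b1, b2⟩ := mul_ne_zero_iff.1 ha
  obtain ⟨l, -, hl⟩ := Finset.exists_ne_zero_of_sum_ne_zero b2
  obtain ⟨b, -, hb⟩ := Finset.exists_ne_zero_of_sum_ne_zero (right_ne_zero_of_mul hl)
  obtain ⟨s1, s2⟩ := (hx _ _).supp _ _ (right_ne_zero_of_mul hb)
  obtain ⟨l', y'⟩ := a
  dsimp only at s1 s2 b1 b2
  subst s1
  have s3 := abs_le.1 s2
  have s4 := p0 b.1
  have s5 := pN b.1
  exact ⟨l', k, b1, by omega, by omega, b2⟩

theorem obc_inj {M : ℕ} : Function.Injective fun a : Fin M × Fin q => pos a.1 a.2 := by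
  intro a b e
  have h1 : q * (a.1 : ℕ) + (a.2 : ℕ) = q * (b.1 : ℕ) + (b.2 : ℕ) := by
    simp only [pos] at e
    exact_mod_cast e
  have h2 := congrArg (· % q) h1
  simp only [Nat.mul_add_mod, Nat.mod_eq_of_lt a.2.2, Nat.mod_eq_of_lt b.2.2] at h2
  rw [h2] at h1
  exact Prod.ext (Fin.ext (Nat.eq_of_mul_eq_mul_left (Fin.pos a.2) (Nat.add_right_cancel h1)))
    (Fin.ext h2)

theorem obc_le {M : ℕ} (a : Fin M × Fin q) : 0 ≤ pos a.1 a.2 ∧ pos a.1 a.2 ≤ (q : ℤ) * M := by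
  have h1 : q * (a.1 : ℕ) + (a.2 : ℕ) ≤ q * M :=
    (Nat.add_le_add_left a.2.2.le _).trans (Nat.mul_le_mul_left q a.1.2)
  unfold pos
  exact ⟨by positivity, by exact_mod_cast h1⟩

theorem obc_surj {M : ℕ} {l : ℤ} (h0 : 0 ≤ l) (h1 : l < (q : ℤ) * M) :
    ∃ (j : Fin M) (s : Fin q), l = pos j s := by
  obtain ⟨n, rfl⟩ := Int.eq_ofNat_of_zero_le h0
  have h2 : n < q * M := by exact_mod_cast h1
  have hq : 0 < q := Nat.pos_of_mul_pos_right (Nat.zero_lt_of_lt h2)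
  refine ⟨⟨n / q, Nat.div_lt_of_lt_mul h2⟩, ⟨n % q, Nat.mod_lt _ hq⟩, ?_⟩
  unfold pos
  exact_mod_cast (Nat.div_add_mod n q).symm

/-- The defect of a line. -/
def obcD (h : X ≃ₜ X) (q : ℕ) (g : X → ℝ) (ρ : L → X → Fin 3 → ℝ) {M : ℕ} (γ : Fin M × L)
    (y : X) (ω : Fin M × L → S2) : ℝ :=
  ∑ s : Fin q, g ((h ^ pos γ.1 s) y) * ‖ρ γ.2 ((h ^ pos γ.1 s) y) - (ω γ).1‖

theorem obc_fin (hU : Urp h q ε g) {M k : ℕ} {y : X} {ω : Fin M × L → S2}
    {u : Fin M × L → Fin 3 → ℝ} (hu : ∀ γ, u γ ≠ 0)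
    (hb : ∀ γ s s', ((∑ c, u γ c ^ 2 : ℝ) : ℂ) * bott (ω γ).1 s s' =
      spin (u γ) s * starRingEnd ℂ (spin (u γ) s'))
    {Bad : Finset (Fin M × L)} (hk : Bad.card ≤ k) (hBad : ∀ γ ∉ Bad, ∀ s : Fin q,
      g ((h ^ pos γ.1 s) y) ≠ 0 → ρ γ.2 ((h ^ pos γ.1 s) y) = (ω γ).1)
    {Mx : Fin (2 * k) → (Fin M × L) × Fin 2 → ℂ} (hMx : ∀ w : (Fin M × L) × Fin 2 → ℂ,
      {a | w a ≠ 0}.ncard ≤ 2 * k → (∀ d, ∑ a, Mx d a * w a = 0) → w = 0)
    {η : ℤ → Fin p ⊕ L × Fin 2 → ℂ} {ζ : Fin M × L → Fin 2 → ℂ}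
    (hζ : ∀ γ σ, ζ γ σ =
      ∑ s : Fin q, (g ((h ^ pos γ.1 s) y) : ℂ) * η (pos γ.1 s) (.inr (γ.2, σ)))
    (h1 : ∀ d, ∑ b, Mx d b * ((obcD h q g ρ b.1 y ω : ℂ) * ζ b.1 b.2) = 0)
    (h2 : ∀ γ, ∑ σ, starRingEnd ℂ (spin (u γ) σ) * ζ γ σ = 0) (j : Fin M) (s : Fin q)
    (hg : g ((h ^ pos j s) y) ≠ 0) (k₀ : Fin p ⊕ L × Fin 2) :
    ∑ k', matB p (fun l => ρ l ((h ^ pos j s) y)) k₀ k' * η (pos j s) k' = 0 := by
  have hw := hMx (fun b => (obcD h q g ρ b.1 y ω : ℂ) * ζ b.1 b.2) (by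
    refine (ncard_le_ncard (t := ↑(Bad ×ˢ (Finset.univ : Finset (Fin 2)))) (fun b hb' => ?_)
      (toFinite _)).trans ?_
    · refine Finset.mem_coe.2 (Finset.mem_product.2 ⟨by_contra fun hn => hb' ?_, Finset.mem_univ _⟩)
      have e : obcD h q g ρ b.1 y ω = 0 := Finset.sum_eq_zero fun s' _ => by
        by_cases h0 : g ((h ^ pos b.1.1 s') y) = 0
        · rw [h0, zero_mul]
        · rw [hBad _ hn s' h0, sub_self, norm_zero, mul_zero]
      rw [e, Complex.ofReal_zero, zero_mul]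
    · rw [ncard_coe_finset, Finset.card_product, Finset.card_univ, Fintype.card_fin]
      omega) h1
  have hgc : (g ((h ^ pos j s) y) : ℂ) ≠ 0 := Complex.ofReal_ne_zero.2 hg
  have e1 : ∀ i σ, ζ (j, i) σ = g ((h ^ pos j s) y) * η (pos j s) (.inr (i, σ)) := fun i σ => by
    rw [hζ, Finset.sum_eq_single s (fun s' _ hs => by
      rw [pos_single hU y j hg hs, Complex.ofReal_zero, zero_mul]) (by simp)]
  have e2 : ∀ i, obcD h q g ρ (j, i) y ω =
      g ((h ^ pos j s) y) * ‖ρ i ((h ^ pos j s) y) - (ω (j, i)).1‖ := fun i =>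
    Finset.sum_eq_single s (fun s' _ hs => by rw [pos_single hU y j hg hs, zero_mul]) (by simp)
  rcases k₀ with k₀ | ⟨i, σ⟩
  · exact Finset.sum_eq_zero fun k' _ => by rcases k' with k' | k' <;> simp [matB]
  rw [Fintype.sum_sum_type, Fintype.sum_prod_type, Finset.sum_eq_zero fun k' _ => by simp [matB],
    zero_add, Finset.sum_eq_single i (fun i' _ hi => Finset.sum_eq_zero fun s' _ => by
      simp [matB, hi.symm]) (by simp)]
  simp only [matB, if_true]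
  by_cases hbad : ρ i ((h ^ pos j s) y) = (ω (j, i)).1
  · have h0 : ((∑ c, u (j, i) c ^ 2 : ℝ) : ℂ) ≠ 0 := by
      obtain ⟨c, hc⟩ := Function.ne_iff.1 (hu (j, i))
      exact Complex.ofReal_ne_zero.2 (Finset.sum_pos' (fun _ _ => sq_nonneg _)
        ⟨c, Finset.mem_univ _, sq_pos_of_ne_zero hc⟩).ne'
    refine (mul_eq_zero.1 ?_).resolve_left h0
    have h3 : ∑ σ', starRingEnd ℂ (spin (u (j, i)) σ') * η (pos j s) (.inr (i, σ')) = 0 := by
      refine (mul_eq_zero.1 ?_).resolve_left hgc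
      rw [← h2 (j, i), Finset.mul_sum]
      exact Finset.sum_congr rfl fun σ' _ => by rw [e1]; ring
    simp only [hbad, Finset.mul_sum _ (fun s' : Fin 2 => _), ← mul_assoc, hb]
    simp only [mul_assoc, ← Finset.mul_sum]
    rw [h3, mul_zero]
  · refine Finset.sum_eq_zero fun σ' _ => ?_
    have h3 : (obcD h q g ρ (j, i) y ω : ℂ) * ζ (j, i) σ' = 0 := congrFun hw ((j, i), σ')
    rw [e1, e2] at h3
    rw [((mul_eq_zero.1 ((mul_eq_zero.1 h3).resolve_left (Complex.ofReal_ne_zero.2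
      (mul_ne_zero hg (norm_ne_zero_iff.2 (sub_ne_zero.2 hbad)))))).resolve_left hgc), mul_zero]

theorem obc_ne {M o n : ℕ} {Off : Finset (Fin M)} (ho : Off.card ≤ o) (hn : n + o * p ≤ M * p)
    {v : Fin M × Fin p → ℝ} (hv : {a | v a = 0}.ncard < n) : ∃ a, a.1 ∉ Off ∧ v a ≠ 0 := by
  by_contra hc
  push Not at hc
  have h1 := ncard_le_ncard (s := ↑(Offᶜ ×ˢ (Finset.univ : Finset (Fin p)))) (t := {a | v a = 0})
    (fun a ha => hc a (Finset.mem_compl.1 (Finset.mem_product.1 (Finset.mem_coe.1 ha)).1))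
    (toFinite _)
  rw [ncard_coe_finset, Finset.card_product, Finset.card_univ, Finset.card_compl, Fintype.card_fin,
    Fintype.card_fin, Nat.sub_mul] at h1
  have h2 := Nat.mul_le_mul_right p ho
  omega

theorem not_closeC (hM : MarkC h q p ε g ρ) {gA : X → ℂ} (g1 : ∀ x, 1 / 2 ≤ g x → gA x = 1)
    {A B x : Fin p ⊕ L × Fin 2 → Fin p ⊕ L × Fin 2 → Hs X →L[ℂ] Hs X}
    (hA : ∀ i j ξ a, A i j ξ a = gA ((h ^ a.1) a.2) * matA p L i j * ξ a)
    (hB : ∀ i j ξ a, B i j ξ a =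
      (g ((h ^ a.1) a.2) : ℂ) * matB p (fun l => ρ l ((h ^ a.1) a.2)) i j * ξ a)
    (hx : ∀ i j, x i j ∈ cross h) :
    ¬ ∀ i j, ‖∑ k, ∑ l, star (x k i) * B k l * x l j - A i j‖ <
      1 / (Fintype.card (Fin p ⊕ L × Fin 2) + 1) := by
  intro hcl
  obtain ⟨R, x', hO, hx'⟩ := fp_approx (h := h)
    (x := fun a : (Fin p ⊕ L × Fin 2) × (Fin p ⊕ L × Fin 2) => x a.1 a.2) (fun a => hx _ _)
    (O := {x | ∀ i j, ‖∑ k, ∑ l, star (x (k, i)) * B k l * x (l, j) - A i j‖ <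
      1 / (Fintype.card (Fin p ⊕ L × Fin 2) + 1)}) (by
      simp only [ofPred_forall]
      exact isOpen_iInter_of_finite fun i => isOpen_iInter_of_finite fun j =>
        isOpen_lt (by fun_prop) continuous_const) hcl
  obtain ⟨M, m, k, o, φ, Rm, hφ, hR, hBad, hOff, hcard⟩ :=
    hM.cube (4 * ((R + 1) * Fintype.card (Fin p ⊕ L × Fin 2)))
  obtain ⟨H, hH, hH', hb⟩ := exists_hopf
  obtain ⟨E, hE⟩ := exists_code (Option ((Fin (2 * k) ⊕ (Fin (R + 1) × Bool) ×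
    (Fin p ⊕ L × Fin 2)) × Fin 2)) (Fin M × Fin p)
  obtain ⟨Mx, hMx⟩ := exists_check (2 * k) ((Fin M × L) × Fin 2)
  have gc : ∀ l : ℤ, Continuous fun τ => g ((h ^ l) (φ τ)) := fun l =>
    hM.urp.cont.comp ((Homeomorph.continuous _).comp hφ)
  obtain ⟨c, hc⟩ : ∃ c : ℤ → Fin p ⊕ L × Fin 2 → _ → Cb m → ℂ, ∀ l k' o τ, c l k' o τ =
      ∑ a : (Fin M × Fin q) × Fin p, ((E o (a.1.1, a.2) *
        max 0 (2 * g ((h ^ pos a.1.1 a.1.2) (φ τ)) - 1) : ℝ) : ℂ) *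
        x' (k', .inl a.2) (dl (pos a.1.1 a.1.2, φ τ)) (l, φ τ) := ⟨_, fun _ _ _ _ => rfl⟩
  have cc : ∀ l k' o, Continuous (c l k' o) := fun l k' o => by
    rw [funext (hc l k' o)]
    exact continuous_finsetSum _ fun a _ => (Complex.continuous_ofReal.comp (continuous_const.mul
      (continuous_const.max ((continuous_const.mul (gc _)).sub continuous_const)))).mul
      (((hx' _).cont _ _).comp hφ)
  obtain ⟨cJ, hJ⟩ : ∃ cJ : Fin M × L → Fin 2 → _ → Cb m → ℂ, ∀ γ σ o τ, cJ γ σ o τ =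
      ∑ s : Fin q, (g ((h ^ pos γ.1 s) (φ τ)) : ℂ) * c (pos γ.1 s) (.inr (γ.2, σ)) o τ :=
    ⟨_, fun _ _ _ _ => rfl⟩
  have cJc : ∀ γ σ o, Continuous (cJ γ σ o) := fun γ σ o => by
    rw [funext (hJ γ σ o)]
    exact continuous_finsetSum _ fun s _ => (Complex.continuous_ofReal.comp (gc _)).mul (cc _ _ _)
  have dc : ∀ γ, Continuous fun z : Cb m × (Fin M × L → S2) => obcD h q g ρ γ (φ z.1) z.2 :=
    fun γ => continuous_finsetSum _ fun s _ => ((gc _).comp continuous_fst).mul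
      (((hM.cont _).comp ((Homeomorph.continuous _).comp (hφ.comp continuous_fst))).sub
        (continuous_subtype_val.comp ((continuous_apply γ).comp continuous_snd))).norm
  obtain ⟨τ, v, u, hv, hu, h0, h1, h2⟩ := obs_zeroC hH hH' hR
    (Sum.elim (fun d o z => ∑ b, Mx d b * ((obcD h q g ρ b.1 (φ z.1) z.2 : ℂ) * cJ b.1 b.2 o z.1))
      fun b o z => c (if b.1.2 then (q : ℤ) * M + (b.1.1 : ℕ) else -((b.1.1 : ℕ) : ℤ)) b.2 o z.1)
    (fun d o => by
      rcases d with d | b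
      · exact continuous_finsetSum _ fun b _ => continuous_const.mul
          ((Complex.continuous_ofReal.comp (dc _)).mul ((cJc _ _ _).comp continuous_fst))
      · exact (cc _ _ _).comp continuous_fst) cJ cJc
  obtain ⟨Bad, hk, hBad'⟩ := hBad _ _ h0
  obtain ⟨Off, ho, hOff'⟩ := hOff τ
  obtain ⟨a₀, a1, a2⟩ := obc_ne ho (by
    simp only [Fintype.card_option, Fintype.card_prod, Fintype.card_sum, Fintype.card_fin,
      Fintype.card_bool] at hcard ⊢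
    nlinarith) (hE v hv)
  obtain ⟨s₀, hs₀⟩ := hOff' _ a1
  obtain ⟨l, k₀, hg, l1, l2, hne⟩ := exists_coordC (h := h) obc_inj (fun a => (obc_le a).1)
    (fun a => (obc_le a).2) (gB := fun x => (g x : ℂ))
    (fun x => matB p fun l => ρ l x) hA hB (x := fun i j => x' (i, j)) (fun i j => hx' _) hO
    (y := φ τ) (v := fun a : (Fin M × Fin q) × Fin p => (((∑ o, v o * E o (a.1.1, a.2)) *
      max 0 (2 * g ((h ^ pos a.1.1 a.1.2) (φ τ)) - 1) : ℝ) : ℂ)) (fun e => a2 (by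
        have h3 := Complex.ofReal_eq_zero.1 (congrFun e ((a₀.1, s₀), a₀.2))
        simp only [hs₀] at h3
        exact (mul_eq_zero.1 h3).resolve_right (by norm_num))) (fun a ha => g1 _ (by
        by_contra hn
        refine ha ?_
        rw [max_eq_left (by linarith), mul_zero, Complex.ofReal_zero]))
  have hsum : ∀ l k', ∑ a : (Fin M × Fin q) × Fin p, (((∑ o, v o * E o (a.1.1, a.2)) *
      max 0 (2 * g ((h ^ pos a.1.1 a.1.2) (φ τ)) - 1) : ℝ) : ℂ) *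
      x' (k', .inl a.2) (dl (pos a.1.1 a.1.2, φ τ)) (l, φ τ) = ∑ o, v o * c l k' o τ :=
    fun l k' => by
      simp only [hc, Finset.mul_sum, Finset.sum_mul, Complex.ofReal_sum]
      rw [Finset.sum_comm]
      refine Finset.sum_congr rfl fun o _ => Finset.sum_congr rfl fun a _ => ?_
      push_cast
      ring
  simp only [hsum] at hne
  refine hne ?_
  by_cases j0 : l < 0
  · refine Finset.sum_eq_zero fun k' _ => ?_
    have h3 := h1 (.inr ((⟨(-l).toNat, by omega⟩, false), k'))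
    have h4 : (0 : ℤ) ≤ -l := by omega
    simp only [Sum.elim_inr, Bool.false_eq_true, if_false, Int.toNat_of_nonneg h4, neg_neg] at h3
    rw [h3, mul_zero]
  by_cases jM : (q : ℤ) * M ≤ l
  · refine Finset.sum_eq_zero fun k' _ => ?_
    have h3 := h1 (.inr ((⟨(l - q * M : ℤ).toNat, by omega⟩, true), k'))
    have h4 : (0 : ℤ) ≤ l - q * M := by omega
    simp only [Sum.elim_inr, if_true, Int.toNat_of_nonneg h4, add_sub_cancel] at h3
    rw [h3, mul_zero]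
  obtain ⟨j, s, rfl⟩ := obc_surj (not_lt.1 j0) (not_le.1 jM)
  refine obc_fin hM.urp hu (fun γ => hb _ (hu γ)) hk hBad' hMx
    (η := fun l k' => ∑ o, v o * c l k' o τ) (ζ := fun γ σ => ∑ o, v o * cJ γ σ o τ)
    (fun γ σ => ?_) (fun d => ?_) h2 j s (Complex.ofReal_ne_zero.1 hg) k₀
  · simp only [hJ, Finset.mul_sum]
    rw [Finset.sum_comm]
    exact Finset.sum_congr rfl fun o _ => Finset.sum_congr rfl fun a _ => by ring
  · rw [← h1 (.inl d)]
    simp only [Sum.elim_inl, Finset.mul_sum]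
    rw [Finset.sum_comm]
    exact Finset.sum_congr rfl fun o _ => Finset.sum_congr rfl fun a _ => by ring

end Vale.Agent.P093
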