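import Vale.Agent.P093.Core
import Vale.Agent.P093C.Obs
import Vale.Agent.P093C.Cf

/-! P093C Core (TASK). The lower bound; a port of `Vale/Agent/P093H/Core.lean` (keep the main proof short: the heartbeats are tight; prove everything possible for a general `A` and `π` as `corH_dim` does). Helper names start with `crc_`.
`a = cor_F π σ (gA • matA)`, `e = cor_F π σ (gE • matA)`, `b = cor_F π σ (g • matB)` with `gA x = cl01 (4 g x - 1)`, `gE x = cl01 (4 g x)`, so `gE * gA = gA` and `e * a = a`. Lemma (`crc_unit`): if `M₀` is a matrix of functions with `star M₀ = M₀`, `M₀ - M₀ * M₀ = star D₀ * D₀` and `f` is a continuous real function with values in `[0, 1]`, then `N₀` with `cor_ev N₀ x = f x • cor_ev M₀ x` has `0 ≤ cor_F π σ N₀ ≤ 1`: `N₀ = star c * M₀ * c` with `cor_ev c x = √(f x) • 1` (`cor_lift`, `cor_ext`), `unit_of`, `conj_unit`; `1 - star c * c = star c' * c'` with `√(1 - f x)`;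 `cor_F π σ 1 = 1`. For `matB` copy `cor_mats` with `g = 1`.
`dimFn τ a ≤ p * (τ (π gE)).re ≤ p / q` (`dimFn_le`, `cor_F_tr`, `urp_tr_le`), `dimFn τ b ≥ card L * (τ (π g)).re ≥ card L * (1 - ε) / q` (`le_dimFn`, `urp_tr_ge`). -/

open Filter Topology Set
open scoped ComplexOrder

noncomputable section

namespace Vale.Agent.P093

variable {X : Type} [TopologicalSpace X] [CompactSpace X] {h : X ≃ₜ X} {q p : ℕ} {L : Type}
  [Fintype L] [DecidableEq L] {g : X → ℝ} {ρ : L → X → Fin 3 → ℝ} {ε : ℝ}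

theorem crc_cl0 (t : ℝ) : 0 ≤ cl01 t := le_max_left _ _

theorem crc_cl1 (t : ℝ) : cl01 t ≤ 1 := max_le zero_le_one (min_le_right _ _)

theorem crc_clc : Continuous cl01 := continuous_const.max (continuous_id.min continuous_const)

theorem crc_hi {t : ℝ} (ht : 1 ≤ t) : cl01 t = 1 := by
  rw [cl01, min_eq_right ht, max_eq_right zero_le_one]

theorem crc_lo {t : ℝ} (ht : t ≤ 0) : cl01 t = 0 := max_eq_left ((min_le_left _ _).trans ht)

theorem crc_mul (t : ℝ) : cl01 t * cl01 (t - 1) = cl01 (t - 1) := by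
  rcases le_total 1 t with h | h
  · rw [crc_hi h, one_mul]
  · rw [crc_lo (sub_nonpos.2 h), mul_zero]

section

variable {ι : Type} [Fintype ι] [DecidableEq ι] {A : Type} [CStarAlgebra A] {n : ℕ}
  (π : C(X, ℂ) →⋆ₐ[ℂ] A) (σ : Fin n ≃ ι)

omit [CompactSpace X] [Fintype ι] in
theorem crc_ev_one (x : X) : cor_ev (1 : Matrix ι ι C(X, ℂ)) x = 1 := by
  ext i j
  simp only [cor_ev, Matrix.of_apply, Matrix.one_apply]
  split_ifs <;> rfl

omit [CompactSpace X] [Fintype ι] in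
theorem crc_one : cor_F π σ (1 : Matrix ι ι C(X, ℂ)) = 1 := by
  ext i j
  rw [cor_F_apply, Matrix.one_apply, CStarMatrix.one_apply]
  simp only [σ.injective.eq_iff]
  split_ifs
  · exact map_one π
  · exact map_zero π

omit [CompactSpace X] in
theorem crc_sq {f : X → ℝ} (hf : Continuous f) (f0 : ∀ x, 0 ≤ f x) :
    ∃ c : Matrix ι ι C(X, ℂ), ∀ (M : Matrix ι ι C(X, ℂ)) (x : X),
      cor_ev (star c * M * c) x = (f x : ℂ) • cor_ev M x := by
  obtain ⟨c, hc⟩ := cor_lift (ι := ι) ⟨fun x => ((√(f x) : ℝ) : ℂ), by fun_prop⟩ (fun _ => 1)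
    fun _ _ => continuous_const
  refine ⟨c, fun M x => ?_⟩
  rw [cor_ev_mul, cor_ev_mul, cor_ev_star, hc, star_smul, star_one, smul_one_mul, mul_smul_one,
    smul_smul]
  change (((√(f x) : ℝ) : ℂ) * star ((√(f x) : ℝ) : ℂ)) • _ = _
  rw [Complex.star_def, Complex.conj_ofReal, ← Complex.ofReal_mul, Real.mul_self_sqrt (f0 x)]

omit [CompactSpace X] in
theorem crc_unit [PartialOrder A] [StarOrderedRing A] {M₀ D₀ N₀ : Matrix ι ι C(X, ℂ)}
    (h1 : star M₀ = M₀) (h2 : M₀ - M₀ * M₀ = star D₀ * D₀) {f : X → ℝ} (hf : Continuous f)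
    (f0 : ∀ x, 0 ≤ f x) (f1 : ∀ x, f x ≤ 1) (hN : ∀ x, cor_ev N₀ x = (f x : ℂ) • cor_ev M₀ x) :
    0 ≤ cor_F π σ N₀ ∧ cor_F π σ N₀ ≤ 1 := by
  obtain ⟨c, hc⟩ := crc_sq (ι := ι) hf f0
  obtain ⟨c', hc'⟩ := crc_sq (ι := ι) (f := fun x => 1 - f x) (continuous_const.sub hf)
    fun x => sub_nonneg.2 (f1 x)
  have e1 : N₀ = star c * M₀ * c := cor_ext fun x => by rw [hN, hc]
  have e2 : 1 - star c * c = star c' * c' := cor_ext fun x => by
    have a1 := hc 1 x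
    have a2 := hc' 1 x
    rw [mul_one] at a1 a2
    rw [cor_ev_sub, a1, a2, crc_ev_one, Complex.ofReal_sub, sub_smul, Complex.ofReal_one, one_smul]
  have b1 : star (cor_F π σ M₀) = cor_F π σ M₀ := by rw [cor_F_star, h1]
  have b2 : cor_F π σ M₀ - cor_F π σ M₀ * cor_F π σ M₀ = star (cor_F π σ D₀) * cor_F π σ D₀ := by
    rw [cor_F_mul, cor_F_sub, h2, cor_F_star, cor_F_mul]
  obtain ⟨b0, b3⟩ := unit_of b1 b2
  have b4 : star (cor_F π σ c) * cor_F π σ c ≤ 1 := by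
    have := star_mul_self_nonneg (cor_F π σ c')
    rw [cor_F_star, cor_F_mul, ← e2, ← cor_F_sub, crc_one, ← cor_F_mul, ← cor_F_star] at this
    exact sub_nonneg.1 this
  rw [e1, ← cor_F_mul, ← cor_F_mul, ← cor_F_star]
  exact conj_unit b0 b3 b4

end

omit [CompactSpace X] in
theorem crc_mats (hM : MarkC h q p ε g ρ) :
    ∃ A₀ B₀ D₀ : Matrix (Fin p ⊕ L × Fin 2) (Fin p ⊕ L × Fin 2) C(X, ℂ),
      (∀ x, cor_ev A₀ x = matA p L) ∧ (∀ x, cor_ev B₀ x = matB p fun l => ρ l x) ∧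
      star A₀ = A₀ ∧ A₀ - A₀ * A₀ = star 0 * 0 ∧ star B₀ = B₀ ∧ B₀ - B₀ * B₀ = star D₀ * D₀ := by
  obtain ⟨A₀, hA⟩ := cor_lift (1 : C(X, ℂ)) (fun _ => matA p L) fun _ _ => continuous_const
  obtain ⟨B₀, hB⟩ := cor_lift (1 : C(X, ℂ)) (fun x => matB p fun l => ρ l x) fun i j =>
    (matB_cont i j).comp (continuous_pi hM.cont)
  obtain ⟨D₀, hD⟩ := cor_lift (ι := Fin p ⊕ L × Fin 2) (1 : C(X, ℂ)) (fun x => Matrix.diagonal
    (Sum.elim (fun _ => 0) fun a => ((√((1 - ∑ c, ρ a.1 x c ^ 2) / 4) : ℝ) : ℂ))) fun i j => by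
      simp only [Matrix.diagonal_apply]
      split_ifs
      · rcases i with i | i
        · exact continuous_const
        · have := hM.cont i.1
          simp only [Sum.elim_inr]
          fun_prop
      · exact continuous_const
  simp only [ContinuousMap.one_apply, one_smul] at hA hB hD
  refine ⟨A₀, B₀, D₀, hA, hB, cor_ext fun x => ?_, ?_, cor_ext fun x => ?_, cor_ext fun x => ?_⟩
  · rw [cor_ev_star, hA, matA_star]
  · rw [mul_zero, sub_eq_zero]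
    exact cor_ext fun x => by rw [cor_ev_mul, hA, matA_sq]
  · rw [cor_ev_star, hB, matB_star]
  · rw [cor_ev_sub, cor_ev_mul, cor_ev_mul, cor_ev_star, hB, hD, matB_sq,
      Matrix.star_eq_conjTranspose, Matrix.diagonal_conjTranspose, Matrix.diagonal_mul_diagonal]
    refine congrArg (fun f => Matrix.diagonal f) (funext fun i => ?_)
    rcases i with i | i
    · simp only [Sum.elim_inl, mul_zero]
    · have h0 : 0 ≤ (1 - ∑ c, ρ i.1 x c ^ 2) / 4 := by linarith [hM.ball i.1 x]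
      simp only [Sum.elim_inr, Pi.star_apply, Complex.star_def, Complex.conj_ofReal]
      rw [← Complex.ofReal_mul, Real.mul_self_sqrt h0]

omit [CompactSpace X] [Fintype L] [DecidableEq L] in
theorem crc_tr (hU : Urp h q ε g) {G GE : C(X, ℂ)} (hG : ∀ x, G x = g x)
    (hE : ∀ x, GE x = ((cl01 (4 * g x) : ℝ) : ℂ)) {A : Type} [CStarAlgebra A]
    (π : C(X, ℂ) →⋆ₐ[ℂ] A) {τ : A →ₗ[ℂ] ℂ} (ht : IsTracial τ)
    (hτ : ∀ f, τ (π (f.comp ⟨h, h.continuous⟩)) = τ (π f)) :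
    1 - ε ≤ q * (τ (π G)).re ∧ q * (τ (π GE)).re ≤ 1 := by
  have m1 : (τ ∘ₗ π.toAlgHom.toLinearMap) 1 = 1 := by
    show τ (π 1) = 1
    rw [map_one, ht.1]
  have m0 : ∀ f, 0 ≤ (τ ∘ₗ π.toAlgHom.toLinearMap) (star f * f) := fun f => by
    show 0 ≤ τ (π (star f * f))
    rw [map_mul, map_star]
    exact ht.2.1 _
  exact ⟨urp_tr_ge hU hG _ m1 hτ m0, urp_tr_le hU (e := fun x => cl01 (4 * g x))
    (fun _ => crc_cl1 _) (fun x hx => crc_lo (by rw [hx, mul_zero])) hE _ m1 hτ m0⟩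

theorem crc_num {q p c r ε s t d d' : ℝ} (hq : 0 < q) (hp : 0 ≤ p) (hc : 0 ≤ c)
    (hr : r < (c * (1 - ε) - p) / q) (t1 : 1 - ε ≤ q * s) (t2 : q * t ≤ 1) (d1 : d ≤ p * t)
    (d2 : c * s ≤ d') : d + r < d' := by
  rw [lt_div_iff₀ hq] at hr
  have t3 := mul_le_mul_of_nonneg_left t1 hc
  have t4 := mul_le_mul_of_nonneg_left t2 hp
  have t5 : p * t + r < c * s := lt_of_mul_lt_mul_left (by linarith) hq.le
  linarith

theorem crc_re (k : ℕ) (z : ℂ) : ((k : ℂ) • z).re = k * z.re := by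
  rw [smul_eq_mul, ← Complex.ofReal_natCast, Complex.re_ofReal_mul]

omit [CompactSpace X] in
theorem crc_A (hM : MarkC h q p ε g ρ) {A : Type} [CStarAlgebra A]
    [PartialOrder A] [StarOrderedRing A] (π : C(X, ℂ) →⋆ₐ[ℂ] A) {n : ℕ}
    (σ : Fin n ≃ Fin p ⊕ L × Fin 2) :
    ∃ (A₀ : Matrix (Fin p ⊕ L × Fin 2) (Fin p ⊕ L × Fin 2) C(X, ℂ)) (GE : C(X, ℂ)),
      (∀ x, cor_ev A₀ x = ((cl01 (4 * g x - 1) : ℝ) : ℂ) • matA p L) ∧
      (∀ x, GE x = ((cl01 (4 * g x) : ℝ) : ℂ)) ∧ 0 ≤ cor_F π σ A₀ ∧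
      ∀ τ : A →ₗ[ℂ] ℂ, IsTracial τ → dimFn τ (cor_F π σ A₀) ≤ p * (τ (π GE)).re := by
  obtain ⟨A₁, -, -, hA, -, a1, a2, -, -⟩ := crc_mats hM
  have gc := hM.urp.cont
  have cA : Continuous fun x => cl01 (4 * g x - 1) := crc_clc.comp (by fun_prop)
  have cE : Continuous fun x => cl01 (4 * g x) := crc_clc.comp (by fun_prop)
  obtain ⟨GA, hGA⟩ : ∃ GA : C(X, ℂ), ∀ x, GA x = ((cl01 (4 * g x - 1) : ℝ) : ℂ) :=
    ⟨⟨_, Complex.continuous_ofReal.comp cA⟩, fun _ => rfl⟩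
  obtain ⟨GE, hGE⟩ : ∃ GE : C(X, ℂ), ∀ x, GE x = ((cl01 (4 * g x) : ℝ) : ℂ) :=
    ⟨⟨_, Complex.continuous_ofReal.comp cE⟩, fun _ => rfl⟩
  obtain ⟨A₀, hA₀⟩ := cor_lift GA (fun _ => matA p L) fun _ _ => continuous_const
  obtain ⟨E₀, hE₀⟩ := cor_lift GE (fun _ => matA p L) fun _ _ => continuous_const
  obtain ⟨a0, a3⟩ := crc_unit π σ (N₀ := A₀) a1 a2 cA (fun _ => crc_cl0 _) (fun _ => crc_cl1 _)
    fun x => by rw [hA₀, hA, hGA]
  obtain ⟨e0, e3⟩ := crc_unit π σ (N₀ := E₀) a1 a2 cE (fun _ => crc_cl0 _) (fun _ => crc_cl1 _)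
    fun x => by rw [hE₀, hA, hGE]
  have hea : cor_F π σ E₀ * cor_F π σ A₀ = cor_F π σ A₀ := by
    rw [cor_F_mul]
    refine congrArg _ (cor_ext fun x => ?_)
    rw [cor_ev_mul, hE₀, hA₀, smul_mul_smul_comm, matA_sq, hGA, hGE, ← Complex.ofReal_mul, crc_mul]
  refine ⟨A₀, GE, fun x => by rw [hA₀, hGA], hGE, a0, fun τ ht => ?_⟩
  have d1 := dimFn_le ht a0 a3 e0 e3 hea
  rwa [cor_F_tr π σ hE₀ fun _ => matA_tr, map_smul, crc_re] at d1

omit [CompactSpace X] in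
theorem crc_B (hM : MarkC h q p ε g ρ) {A : Type} [CStarAlgebra A]
    [PartialOrder A] [StarOrderedRing A] (π : C(X, ℂ) →⋆ₐ[ℂ] A) {n : ℕ}
    (σ : Fin n ≃ Fin p ⊕ L × Fin 2) :
    ∃ (B₀ : Matrix (Fin p ⊕ L × Fin 2) (Fin p ⊕ L × Fin 2) C(X, ℂ)) (G : C(X, ℂ)),
      (∀ x, cor_ev B₀ x = (g x : ℂ) • matB p fun l => ρ l x) ∧ (∀ x, G x = g x) ∧
      0 ≤ cor_F π σ B₀ ∧ ∀ τ : A →ₗ[ℂ] ℂ, IsTracial τ →
        Fintype.card L * (τ (π G)).re ≤ dimFn τ (cor_F π σ B₀) := by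
  obtain ⟨-, B₁, D₁, -, hB, -, -, b1, b2⟩ := crc_mats hM
  have gc := hM.urp.cont
  obtain ⟨G, hG⟩ : ∃ G : C(X, ℂ), ∀ x, G x = g x :=
    ⟨⟨_, Complex.continuous_ofReal.comp gc⟩, fun _ => rfl⟩
  obtain ⟨B₀, hB₀⟩ := cor_lift G (fun x => matB p fun l => ρ l x) fun i j =>
    (matB_cont i j).comp (continuous_pi hM.cont)
  obtain ⟨b0, b3⟩ := crc_unit π σ (N₀ := B₀) b1 b2 gc hM.urp.nonneg hM.urp.le_one
    fun x => by rw [hB₀, hB, hG]
  refine ⟨B₀, G, fun x => by rw [hB₀, hG], hG, b0, fun τ ht => ?_⟩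
  have d2 := le_dimFn ht b0 b3
  rwa [cor_F_tr π σ hB₀ fun x => matB_tr _, map_smul, crc_re] at d2

omit [CompactSpace X] in
theorem crc_key (hM : MarkC h q p ε g ρ) (hq : 0 < q) {r : ℝ}
    (hr : r < ((Fintype.card L : ℝ) * (1 - ε) - p) / q) {A : Type} [CStarAlgebra A]
    [PartialOrder A] [StarOrderedRing A] (π : C(X, ℂ) →⋆ₐ[ℂ] A) {n : ℕ}
    (σ : Fin n ≃ Fin p ⊕ L × Fin 2) :
    ∃ A₀ B₀ : Matrix (Fin p ⊕ L × Fin 2) (Fin p ⊕ L × Fin 2) C(X, ℂ),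
      (∀ x, cor_ev A₀ x = ((cl01 (4 * g x - 1) : ℝ) : ℂ) • matA p L) ∧
      (∀ x, cor_ev B₀ x = (g x : ℂ) • matB p fun l => ρ l x) ∧ 0 ≤ cor_F π σ A₀ ∧
      0 ≤ cor_F π σ B₀ ∧ ∀ τ : A →ₗ[ℂ] ℂ, IsTracial τ →
        (∀ f, τ (π (f.comp ⟨h, h.continuous⟩)) = τ (π f)) →
        dimFn τ (cor_F π σ A₀) + r < dimFn τ (cor_F π σ B₀) := by
  obtain ⟨A₀, GE, hA, hE, a0, d1⟩ := crc_A hM π σ
  obtain ⟨B₀, G, hB, hG, b0, d2⟩ := crc_B hM π σ
  refine ⟨A₀, B₀, hA, hB, a0, b0, fun τ ht hτ => ?_⟩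
  obtain ⟨t1, t2⟩ := crc_tr hM.urp hG hE π ht hτ
  exact crc_num (Nat.cast_pos.2 hq) (Nat.cast_nonneg _) (Nat.cast_nonneg _) hr t1 t2 (d1 τ ht)
    (d2 τ ht)

theorem crc_not [PartialOrder (cross h)] [StarOrderedRing (cross h)] (hM : MarkC h q p ε g ρ)
    (hq : 0 < q) {r : ℝ} (hr : r < ((Fintype.card L : ℝ) * (1 - ε) - p) / q) :
    ¬ IsBound (cross h) r := by
  intro hb
  obtain ⟨π, hπ, hτ⟩ := exists_rep h
  let σ := (Fintype.equivFin (Fin p ⊕ L × Fin 2)).symm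
  obtain ⟨A₀, B₀, hA, hB, a0, b0, hd⟩ := crc_key hM hq hr π σ
  obtain ⟨x, hx⟩ := hb _ _ _ a0 b0 fun τ ht => hd τ ht (hτ τ ht)
  obtain ⟨k, hk⟩ := (Metric.tendsto_nhds.1 hx (1 / (Fintype.card (Fin p ⊕ L × Fin 2) + 1))
    (by positivity)).exists
  rw [dist_eq_norm] at hk
  refine not_closeC hM (gA := fun x => ((cl01 (4 * g x - 1) : ℝ) : ℂ))
    (fun y hy => by rw [crc_hi (by linarith), Complex.ofReal_one])
    (A := fun i j => π (A₀ i j)) (B := fun i j => π (B₀ i j))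
    (x := fun i j => x k (σ.symm i) (σ.symm j)) (fun i j ξ a => ?_) (fun i j ξ a => ?_)
    (fun i j => (x k (σ.symm i) (σ.symm j)).2) fun i j => ?_
  · rw [hπ]
    exact congrArg (· * ξ a) (congrFun (congrFun (hA _) i) j)
  · rw [hπ]
    exact congrArg (· * ξ a) (congrFun (congrFun (hB _) i) j)
  · refine lt_of_eq_of_lt ?_
      ((CStarMatrix.norm_entry_le_norm (i := σ.symm i) (j := σ.symm j)).trans_lt hk)
    have e : (star (x k) * cor_F π σ B₀ * x k - cor_F π σ A₀) (σ.symm i) (σ.symm j) =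
        ∑ a, ∑ b, star (x k (σ.symm a) (σ.symm i)) * π (B₀ a b) * x k (σ.symm b) (σ.symm j) -
          π (A₀ i j) := by
      rw [CStarMatrix.sub_apply, CStarMatrix.mul_apply, cor_F_apply, Equiv.apply_symm_apply,
        Equiv.apply_symm_apply, Finset.sum_comm, ← Equiv.sum_comp σ.symm]
      congr 1
      refine Finset.sum_congr rfl fun b _ => ?_
      rw [CStarMatrix.mul_apply, Finset.sum_mul, ← Equiv.sum_comp σ.symm]
      refine Finset.sum_congr rfl fun a _ => ?_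
      rw [CStarMatrix.star_apply, cor_F_apply, Equiv.apply_symm_apply, Equiv.apply_symm_apply]
    rw [e]
    exact (congrArg norm (cor_coe (cross h) _ _ _ _)).symm

theorem le_rcC (hM : MarkC h q p ε g ρ) (hq : 0 < q) :
    ENNReal.ofReal (((Fintype.card L : ℝ) * (1 - ε) - p) / q) ≤ rc (cross h) := by
  let := CStarAlgebra.spectralOrder (cross h)
  have := CStarAlgebra.spectralOrderedRing (cross h)
  refine le_iInf₂ fun r hr => ?_
  rw [← ENNReal.ofReal_coe_nnreal]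
  exact ENNReal.ofReal_le_ofReal (not_lt.1 fun hlt => crc_not hM hq hlt hr)

end Vale.Agent.P093
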