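import Vale.Agent.P093C.Core
import Vale.Agent.P093C.GrpC
import Vale.Agent.P093C.UrpC
import Vale.Agent.P093C.Col

/-! P093C Main (TASK). Choice of the parameters. Helper names start with `mac_`.
`cube_step`: `n₀ = leastOrd 𝒰`. For `η > 0` take `ε = min (1 / 2) (η / (d + 8 t (n₀ + 1) + 1))`, `q` large with `leastOrd (joinCov h 𝒰 q) < d q` (`eventually_lt_of_limsup_lt`, `ENNReal.div_lt_iff`, `ENNReal.ofReal_mul`) and `9 t + 1 ≤ η q`; `n = ⌊d q⌋₊`, `γ = (n + 1) / (2 t + 1)`, `p = ⌊8 t (n + 1 - c q + (n₀ + 1) ε q)⌋₊ + 1`; `hcube` from `frequently_lt_of_lt_limsup`, `frequently_atTop`, `lt_iSup_iff`. Then `(γ t (1 - ε) - p) / q ≥ d t / (2 t + 1) - 8 t (d - c) - 3 η` since `γ (2 t + 1) ≥ d q - 2 t`, `n + 1 ≤ d q + 1`. Let `η → 0` (`ENNReal.le_of_forall_pos_le_add`).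
`cube_main`: `D = (mdim h).toReal`; nothing to prove if `D = 0`. For `η > 0` take `t` with `D / 2 - η ≤ D t / (2 t + 1)`, `0 < β ≤ D` with `16 t β ≤ η`, `c = D - β`, `d = D + β`; `ofReal c < mdim h ≤ cdim h` gives `𝒰` (`lt_iSup_iff`), `le_iSup₂` for `mdim`. -/

open Filter Topology Set
open scoped ENNReal

noncomputable section

namespace Vale.Agent.P093

variable {X : Type} [MetricSpace X] [CompactSpace X] [Infinite X] {h : X ≃ₜ X}

theorem mac_num {d c t γ n p q η ε a : ℝ} (hq : 0 < q) (ht : 0 ≤ t) (hγ : 0 ≤ γ) (h0 : 0 < ε)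
    (h1 : ε ≤ 1 / 2) (h2 : ε * d ≤ η) (h3 : ε * (8 * t * a) ≤ η) (h4 : 9 * t + 1 ≤ η * q)
    (n1 : d * q ≤ n + 1) (n2 : n ≤ d * q) (g1 : γ * (2 * t + 1) ≤ n + 1)
    (g2 : n + 1 ≤ γ * (2 * t + 1) + 2 * t) (hp : p ≤ 8 * t * (n + 1 - c * q + a * ε * q) + 1) :
    d * t / (2 * t + 1) - 8 * t * (d - c) - 3 * η ≤ (γ * t * (1 - ε) - p) / q := by
  have a0 : 0 < 2 * t + 1 := by positivity
  have a1 : d * t / (2 * t + 1) * q ≤ γ * t + t := by
    rw [div_mul_eq_mul_div, div_le_iff₀ a0]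
    have := mul_le_mul_of_nonneg_right (n1.trans g2) ht
    nlinarith
  have a2 : γ * t * 2 ≤ d * q + 1 := by linarith
  have a3 := mul_le_mul_of_nonneg_left a2 h0.le
  have a4 := mul_le_mul_of_nonneg_right h2 hq.le
  have a5 := mul_le_mul_of_nonneg_right h3 hq.le
  have a6 := mul_le_mul_of_nonneg_left n2 ht
  rw [le_div_iff₀ hq]
  nlinarith

omit [CompactSpace X] [Infinite X] in
theorem mac_cube {𝒰 : Set (Set X)} {c : ℝ} (c0 : 0 ≤ c)
    (hc : ENNReal.ofReal c < limsup (fun N : ℕ => cubeOrd (joinCov h 𝒰 N) / N) atTop) (N₀ : ℕ) :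
    ∃ N ≥ N₀, ∃ (m : ℕ) (φ : Cb m → X), Continuous φ ∧ c * N ≤ m ∧
      ∀ U ∈ joinCov h 𝒰 N, ∀ i s t, s i = 0 → t i = 1 → φ s ∈ U → φ t ∉ U := by
  obtain ⟨N, h1, h2⟩ := frequently_atTop.1 (frequently_lt_of_lt_limsup (h := hc)) (N₀ + 1)
  have h3 : (N : ℝ≥0∞) ≠ 0 := by exact_mod_cast (by omega : N ≠ 0)
  rw [ENNReal.lt_div_iff_mul_lt (Or.inl h3) (Or.inl (ENNReal.natCast_ne_top N)), cubeOrd] at h2
  simp only [lt_iSup_iff] at h2
  obtain ⟨m, φ, h4, h5⟩ := h2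
  refine ⟨N, by omega, m, φ, φ.continuous, ?_, h4⟩
  rw [← ENNReal.ofReal_natCast N, ← ENNReal.ofReal_mul c0, ← ENNReal.ofReal_natCast m] at h5
  exact ((ENNReal.ofReal_lt_ofReal_iff_of_nonneg (by positivity)).1 h5).le

theorem mac_step (hmin : ∀ x, Dense (range fun n : ℤ => (h ^ n) x)) {𝒰 : Set (Set X)}
    (hU : IsCover 𝒰) {c d : ℝ} (c0 : 0 ≤ c) (cd : c ≤ d)
    (hd : limsup (fun N : ℕ => (leastOrd (joinCov h 𝒰 N) : ℝ≥0∞) / N) atTop < ENNReal.ofReal d)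
    (hc : ENNReal.ofReal c < limsup (fun N : ℕ => cubeOrd (joinCov h 𝒰 N) / N) atTop) (t : ℕ)
    {η : ℝ} (hη : 0 < η) :
    ENNReal.ofReal (d * t / (2 * t + 1) - 8 * t * (d - c) - 3 * η) ≤ rc (cross h) := by
  have d0 : 0 ≤ d := c0.trans cd
  obtain ⟨Λ₀, _, col₀, G₀, h₀⟩ := exists_col hU le_rfl
  generalize leastOrd 𝒰 = n₀ at col₀ h₀
  obtain ⟨ε, hε, hε1, hε2⟩ : ∃ ε : ℝ, 0 < ε ∧ ε ≤ 1 / 2 ∧
      ε * (d + 8 * t * (n₀ + 1) + 1) ≤ η := by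
    refine ⟨min (1 / 2) (η / (d + 8 * t * (n₀ + 1) + 1)), by positivity, min_le_left _ _, ?_⟩
    exact (le_div_iff₀ (by positivity)).1 (min_le_right _ _)
  obtain ⟨Q₀, hQ₀⟩ := exists_nat_ge ((9 * (t : ℝ) + 1) / η)
  obtain ⟨q, h1, h2⟩ := ((eventually_lt_of_limsup_lt hd).and
    (eventually_ge_atTop (Q₀ + 1))).exists
  have hq : 0 < q := by omega
  have hq' : (0 : ℝ) < q := by exact_mod_cast hq
  have h3 : (q : ℝ≥0∞) ≠ 0 := by exact_mod_cast hq.ne'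
  rw [ENNReal.div_lt_iff (Or.inl h3) (Or.inl (ENNReal.natCast_ne_top q)),
    ← ENNReal.ofReal_natCast q, ← ENNReal.ofReal_mul d0, ← ENNReal.ofReal_natCast,
    ENNReal.ofReal_lt_ofReal_iff_of_nonneg (by positivity)] at h1
  obtain ⟨Λ, _, col, G, h4⟩ := exists_col (join_cover h hU q) (Nat.le_floor h1.le)
  have n1 := (Nat.lt_floor_add_one (d * q)).le
  have n2 := Nat.floor_le (a := d * q) (by positivity)
  generalize ⌊d * q⌋₊ = n at col h4 n1 n2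
  obtain ⟨g, hg⟩ := exists_urp hmin hq hε
  have n3 := (mul_le_mul_of_nonneg_right cd hq'.le).trans n1
  obtain ⟨ρ, hM⟩ := exists_markC hq hε hε1 hg h4 h₀ c0 n3 (mac_cube c0 hc) (t := t)
    (γ := (n + 1) / (2 * t + 1)) (p := ⌊8 * t * (n + 1 - c * q + (n₀ + 1) * ε * q)⌋₊ + 1)
    (Nat.div_mul_le_self _ _) (by push_cast; exact Nat.lt_floor_add_one _)
  refine le_trans (ENNReal.ofReal_le_ofReal ?_) (le_rcC hM hq)
  rw [Fintype.card_prod, Fintype.card_fin, Fintype.card_fin, Nat.cast_mul]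
  have b1 : 0 ≤ ε * d := by positivity
  have b2 : 0 ≤ ε * (8 * t * (n₀ + 1)) := by positivity
  refine mac_num (a := n₀ + 1) (c := c) hq' (by positivity) (by positivity) hε hε1 (by linarith)
    (by linarith) ?_ n1 n2 ?_ ?_ ?_
  · rw [div_le_iff₀ hη] at hQ₀
    have : (Q₀ : ℝ) ≤ q := by exact_mod_cast (by omega : Q₀ ≤ q)
    nlinarith
  · exact_mod_cast Nat.div_mul_le_self (n + 1) (2 * t + 1)
  · have k1 := Nat.div_add_mod' (n + 1) (2 * t + 1)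
    have k2 := Nat.mod_lt (n + 1) (Nat.add_one_pos (2 * t))
    have k3 : n + 1 ≤ (n + 1) / (2 * t + 1) * (2 * t + 1) + 2 * t := by omega
    exact_mod_cast k3
  · push_cast
    have b3 : 0 ≤ (n₀ + 1) * ε * q := by positivity
    exact add_le_add (Nat.floor_le (mul_nonneg (by positivity) (by linarith))) le_rfl

theorem mac_lim {a : ℝ} {r : ℝ≥0∞} (H : ∀ η : ℝ, 0 < η → ENNReal.ofReal (a - η) ≤ r) :
    ENNReal.ofReal a ≤ r := by
  refine ENNReal.le_of_forall_pos_le_add fun ε hε _ => ?_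
  calc ENNReal.ofReal a = ENNReal.ofReal (a - ε + ε) := by rw [sub_add_cancel]
    _ ≤ ENNReal.ofReal (a - ε) + ENNReal.ofReal ε := ENNReal.ofReal_add_le
    _ ≤ r + ε := by
      rw [ENNReal.ofReal_coe_nnreal]
      exact add_le_add (H ε hε) le_rfl

theorem cube_step (hmin : ∀ x, Dense (range fun n : ℤ => (h ^ n) x)) {𝒰 : Set (Set X)}
    (hU : IsCover 𝒰) {c d : ℝ} (c0 : 0 ≤ c) (cd : c ≤ d)
    (hd : limsup (fun N : ℕ => (leastOrd (joinCov h 𝒰 N) : ℝ≥0∞) / N) atTop < ENNReal.ofReal d)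
    (hc : ENNReal.ofReal c < limsup (fun N : ℕ => cubeOrd (joinCov h 𝒰 N) / N) atTop) (t : ℕ) :
    ENNReal.ofReal (d * t / (2 * t + 1) - 8 * t * (d - c)) ≤ rc (cross h) := by
  refine mac_lim fun η hη => ?_
  have h1 := mac_step hmin hU c0 cd hd hc t (η := η / 3) (by positivity)
  rwa [mul_div_cancel₀ _ three_ne_zero] at h1

theorem cube_main (hmin : ∀ x, Dense (range fun n : ℤ => (h ^ n) x)) (hfin : mdim h ≠ ⊤)
    (hc : mdim h ≤ cdim h) : mdim h / 2 ≤ rc (cross h) := by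
  obtain ⟨D, D0, hD⟩ : ∃ D : ℝ, 0 ≤ D ∧ mdim h = ENNReal.ofReal D :=
    ⟨_, ENNReal.toReal_nonneg, (ENNReal.ofReal_toReal hfin).symm⟩
  rcases D0.eq_or_lt with rfl | D1
  · simp [hD]
  have e : mdim h / 2 = ENNReal.ofReal (D / 2) := by
    rw [hD, ENNReal.ofReal_div_of_pos two_pos, ENNReal.ofReal_ofNat]
  rw [e]
  refine mac_lim fun η hη => ?_
  obtain ⟨t, ht⟩ := exists_nat_ge (D / η)
  obtain ⟨β, b0, b1, b2⟩ : ∃ β : ℝ, 0 < β ∧ β ≤ D ∧ β * (32 * t + 1) ≤ η :=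
    ⟨min D (η / (32 * t + 1)), by positivity, min_le_left _ _,
      (le_div_iff₀ (by positivity)).1 (min_le_right _ _)⟩
  have h1 : ENNReal.ofReal (D - β) < cdim h :=
    lt_of_lt_of_le ((ENNReal.ofReal_lt_ofReal_iff D1).2 (by linarith)) (hD ▸ hc)
  rw [cdim] at h1
  simp only [lt_iSup_iff] at h1
  obtain ⟨𝒰, hU, h2⟩ := h1
  have h3 : limsup (fun N : ℕ => (leastOrd (joinCov h 𝒰 N) : ℝ≥0∞) / N) atTop ≤ mdim h :=
    le_iSup₂ (f := fun (𝒰 : Set (Set X)) (_ : IsCover 𝒰) =>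
      limsup (fun N : ℕ => (leastOrd (joinCov h 𝒰 N) : ℝ≥0∞) / N) atTop) 𝒰 hU
  refine le_trans (ENNReal.ofReal_le_ofReal ?_) (cube_step hmin hU (d := D + β) (by linarith)
    (by linarith) (h3.trans_lt (hD ▸ (ENNReal.ofReal_lt_ofReal_iff (by linarith)).2
      (by linarith))) h2 t)
  rw [div_le_iff₀ hη] at ht
  have h4 : D / 2 - η / 2 ≤ (D + β) * t / (2 * t + 1) := by
    rw [le_div_iff₀ (by positivity)]
    have : 0 ≤ β * t := by positivity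
    nlinarith
  linarith

end Vale.Agent.P093
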