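import Vale.Agent.P093.MdA
import Vale.Agent.P093C.Main
import Vale.Agent.P093C.Rate

/-! P093C Tight. The version which allows infinite mean dimension. -/

open Filter Topology Set
open scoped ENNReal

noncomputable section

namespace Vale.Agent.P093

variable {X : Type} [MetricSpace X] [CompactSpace X] {h : X ≃ₜ X}

theorem rate_fin {𝒰 : Set (Set X)} (hU : IsCover 𝒰) : ordRate h 𝒰 ≠ ⊤ := by
  obtain ⟨Λ, _, col, G, hc⟩ := exists_col hU le_rfl
  have h1 : ∀ N, leastOrd (joinCov h 𝒰 N) ≤ Fintype.card Λ * N := fun N => by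
    refine leastOrd_le (Λ := Λ × Fin N) (fun a x => G a.1 (h^[a.2] x))
      (fun a => (hc.cont _).comp (h.continuous.iterate _)) finite_empty (fun x => ?_) fun x => ?_
    · refine (ncard_le_ncard (subset_univ _) (toFinite _)).trans ?_
      rw [ncard_univ, Nat.card_eq_fintype_card, Fintype.card_prod, Fintype.card_fin]
    · choose a ha using fun j : Fin N => hc.one (h^[j] x)
      choose U h1 h2 using hc.sub
      exact ⟨_, ⟨fun j => U (a j), fun j => h1 _, rfl⟩, fun x' hx' =>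
        mem_iInter.2 fun j => h2 _ _ (hx' (a j, j) (ha j)).ne'⟩
  refine ne_top_of_le_ne_top (ENNReal.natCast_ne_top (Fintype.card Λ))
    (limsup_le_of_le (by isBoundedDefault) (.of_forall fun N => ?_))
  refine ENNReal.div_le_of_le_mul ?_
  exact_mod_cast h1 N

theorem tight_step [Infinite X] (hmin : ∀ x, Dense (range fun n : ℤ => (h ^ n) x)) {D : ℝ}
    (H : ∀ η : ℝ≥0∞, 0 < η → ∃ 𝒱, IsCover 𝒱 ∧ ENNReal.ofReal D ≤ cubeRate h 𝒱 + η ∧
      ordRate h 𝒱 ≤ cubeRate h 𝒱 + η) : ENNReal.ofReal (D / 2) ≤ rc (cross h) := by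
  rcases le_or_gt D 0 with h0 | h0
  · rw [ENNReal.ofReal_of_nonpos (by linarith)]
    exact zero_le
  refine ENNReal.le_of_forall_pos_le_add fun ε hε _ => ?_
  have hε' : (0 : ℝ) < ε := hε
  obtain ⟨t, ht⟩ := exists_nat_ge (D / ε)
  rw [div_le_iff₀ hε'] at ht
  obtain ⟨β, b0, b1, b2⟩ : ∃ β : ℝ, 0 < β ∧ 3 * β ≤ D ∧ 48 * t * β ≤ ε := by
    have e0 := min_le_left (D / 3) (ε / (48 * t + 1))
    refine ⟨min (D / 3) (ε / (48 * t + 1)), by positivity, by linarith, ?_⟩
    refine (mul_le_mul_of_nonneg_left (min_le_right _ _) (by positivity)).trans ?_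
    rw [← mul_div_assoc, div_le_iff₀ (by positivity)]
    nlinarith
  obtain ⟨𝒱, hV, v1, v2⟩ := H (ENNReal.ofReal β) (ENNReal.ofReal_pos.2 b0)
  obtain ⟨d, hd⟩ : ∃ d, ordRate h 𝒱 = ENNReal.ofReal d :=
    ⟨_, (ENNReal.ofReal_toReal (rate_fin hV)).symm⟩
  have x1 := le_max_left D d
  have x2 := le_max_right D d
  have x3 : ENNReal.ofReal (max D d) ≤ cubeRate h 𝒱 + ENNReal.ofReal β := by
    rw [ENNReal.ofReal_max]
    exact max_le v1 (hd ▸ v2)
  have h1 := cube_step hmin hV (c := max D d - 2 * β) (d := max D d + β) (by linarith)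
    (by linarith) (hd.trans_lt ((ENNReal.ofReal_lt_ofReal_iff (by linarith)).2 (by linarith)))
    (by
      by_contra hn
      have h2 := x3.trans (add_le_add (not_lt.1 hn) le_rfl)
      rw [← ENNReal.ofReal_add (by linarith) b0.le,
        ENNReal.ofReal_le_ofReal_iff (by linarith)] at h2
      linarith) t
  have h3 : D / 2 - ε / 2 ≤ (max D d + β) * t / (2 * t + 1) := by
    rw [le_div_iff₀ (by positivity)]
    have : D * t ≤ (max D d + β) * t := mul_le_mul_of_nonneg_right (by linarith) t.cast_nonneg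
    nlinarith
  calc ENNReal.ofReal (D / 2)
      ≤ ENNReal.ofReal (((max D d + β) * t / (2 * t + 1) -
          8 * t * (max D d + β - (max D d - 2 * β))) + ε) :=
        ENNReal.ofReal_le_ofReal (by linarith)
    _ ≤ _ := ENNReal.ofReal_add_le
    _ ≤ rc (cross h) + ε := by
      rw [ENNReal.ofReal_coe_nnreal]
      exact add_le_add h1 le_rfl

theorem tight_main [Infinite X] (hmin : ∀ x, Dense (range fun n : ℤ => (h ^ n) x))
    (H : ∀ 𝒰, IsCover 𝒰 → ∀ η : ℝ≥0∞, 0 < η → ∃ 𝒱, IsCover 𝒱 ∧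
      ordRate h 𝒰 ≤ cubeRate h 𝒱 + η ∧ ordRate h 𝒱 ≤ cubeRate h 𝒱 + η) :
    mdim h / 2 ≤ rc (cross h) := by
  refine ENNReal.div_le_of_le_mul (iSup₂_le fun 𝒰 hU => ?_)
  have e := ENNReal.ofReal_toReal (rate_fin (h := h) hU)
  have h1 := tight_step hmin (D := (ordRate h 𝒰).toReal) fun η hη => by
    rw [e]
    exact H 𝒰 hU η hη
  rw [ENNReal.ofReal_div_of_pos two_pos, ENNReal.ofReal_ofNat, e,
    ENNReal.div_le_iff two_ne_zero ENNReal.ofNat_ne_top] at h1
  exact h1

end Vale.Agent.P093
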